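import Mathlib

/-! Definitions for the counterexample to the Lipman-Zariski conjecture; see notes/P266.md. -/

open Polynomial

noncomputable section

namespace Vale.Agent.P266

section Abstract

variable {K : Type} [Field K] [Algebra ℂ K]

/-- every element of `K` is a quotient of two elements of `S` -/
def FracTop (S : Subalgebra ℂ K) : Prop := ∀ z : K, ∃ a ∈ S, ∃ b ∈ S, b ≠ 0 ∧ z * b = a

def Pres (D : Derivation ℂ K K) (S : Subalgebra ℂ K) : Prop := ∀ s ∈ S, D s ∈ S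

def Below (S : Subalgebra ℂ K) (V : ValuationSubring K) : Prop := ∀ s ∈ S, s ∈ V

/-- `S ⊆ ℂ + m_V` -/
def Small (S : Subalgebra ℂ K) (V : ValuationSubring K) : Prop :=
  ∀ a ∈ S, ∃ c : ℂ, V.valuation (a - algebraMap ℂ K c) < 1

def wedge (D E : Derivation ℂ K K) (a b : K) : K := D a * E b - D b * E a

/-- a good chart at the centre of `V` -/
def Good (v₁ v₂ : Derivation ℂ K K) (A₀ : Subalgebra ℂ K) (V : ValuationSubring K) : Prop :=
  ∃ S : Subalgebra ℂ K, S.FG ∧ FracTop S ∧ A₀ ≤ S ∧ Below S V ∧ Pres v₁ S ∧ Pres v₂ S ∧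
    ∃ a ∈ S, ∃ b ∈ S, V.valuation (wedge v₁ v₂ a b) = 1

/-- both fields vanish at the centre of `V` -/
def Sing (v₁ v₂ : Derivation ℂ K K) (A₀ : Subalgebra ℂ K) (V : ValuationSubring K) : Prop :=
  Small A₀ V ∧ ∃ S : Subalgebra ℂ K, S.FG ∧ FracTop S ∧ A₀ ≤ S ∧ Below S V ∧
    ∃ (Y₁ Y₂ : Derivation ℂ K K) (p₁ p₂ : K), Pres Y₁ S ∧ Pres Y₂ S ∧ V.valuation p₁ < 1 ∧
      V.valuation p₂ < 1 ∧ v₁ = p₁ • Y₁ ∧ v₂ = p₂ • Y₂

/-- integral closure in `K` -/
def icl (S : Subalgebra ℂ K) : Subalgebra ℂ K := (integralClosure S K).restrictScalars ℂ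

/-- the localisation of `A` at the centre of `V` -/
def Loc (A : Subalgebra ℂ K) (V : ValuationSubring K) : Set K :=
  {z | ∃ a ∈ A, ∃ b ∈ A, V.valuation b = 1 ∧ z * b = a}

/-- the maximal ideal of the localisation at the centre of `V` is generated by `s, t` -/
def TwoGen (A : Subalgebra ℂ K) (V : ValuationSubring K) (s t : K) : Prop :=
  s ∈ A ∧ t ∈ A ∧ V.valuation s < 1 ∧ V.valuation t < 1 ∧
    ∀ a ∈ A, V.valuation a < 1 →
      ∃ b ∈ A, V.valuation b = 1 ∧ ∃ p ∈ A, ∃ q ∈ A, b * a = p * s + q * t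

end Abstract

section Data

def wc : Fin 4 → ℂ := ![775, 176, -775, -176]

def tP : Fin 4 → ℂ[X] := ![1, X + C 9, 1, X + C 9]

def Is : ℂ[X] := X ^ 4 - C 250 * X ^ 3 + C (3260475 / 128) * X ^ 2 -
  C (1491888256875 / 30976) * X + C (3069142274244375 / 1982464)

def In : ℂ[X] := X ^ 2 - C 268 * X + C (261603 / 8)

def IP : Fin 4 → ℂ[X] := ![Is, In, Is, In]

def qP (j : Fin 4) : Fin 3 → ℂ[X] := ![X, tP j, IP j]

def kk : Fin 3 → ℕ := ![6, 17, 4]

/-- the foliation with two singular points on line `j` -/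
def two : Fin 4 → Fin 2 := ![0, 0, 1, 1]

/-- the foliation with one singular point on line `j` -/
def one : Fin 4 → Fin 2 := ![1, 1, 0, 0]

/-- `tP j * sTwo j` is the quadratic singular factor -/
def sTwo : Fin 4 → ℂ[X] :=
  ![X ^ 2 - C (50 / 11) * X - C (339525 / 176), X - C (910 / 31),
    X ^ 2 - C (50 / 11) * X - C (339525 / 176), X - C (910 / 31)]

def sOne : Fin 4 → ℂ[X] := ![X - C (500 / 11), X - C (919 / 31), X - C (500 / 11), X - C (919 / 31)]

def BTwo : Fin 4 → ℂ[X] := ![C 22 * X + C 900, C 31 * X + C 288, C 22 * X + C 900, C 31 * X + C 288]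

def BOne : Fin 4 → ℂ[X] := ![C 22, C 31, C 22, C 31]

def sP (i : Fin 2) (j : Fin 4) : ℂ[X] := if i = two j then tP j * sTwo j else sOne j

def BP (i : Fin 2) (j : Fin 4) : ℂ[X] := if i = two j then BTwo j else BOne j

def al (i : Fin 2) (j : Fin 4) : ℕ := if i = two j then 1 else 2

def QP (j : Fin 4) : ℂ[X] := X ^ 6 * tP j ^ 17 * IP j ^ 4

def OP (i : Fin 2) (j : Fin 4) : ℂ[X] := X ^ al i j * tP j ^ 2 * IP j

/-- `OP i j * (QP j)' / QP j` -/
def EP (i : Fin 2) (j : Fin 4) : ℂ[X] :=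
  C 6 * X ^ (al i j - 1) * tP j ^ 2 * IP j +
    C 17 * X ^ al i j * tP j * derivative (tP j) * IP j +
    C 4 * X ^ al i j * tP j ^ 2 * derivative (IP j)

def kap : ℂ := 3 / 3459104

def NN : ℕ := 6138

def nF : ℕ := 37510

def cc : ℕ := 6821

def mm (i : Fin 2) (j : Fin 4) : ℕ := ![![310, 220, 31, 121], ![31, 121, 310, 220]] i j

def muTwo : Fin 4 → Fin 3 → ℕ :=
  ![![7998, 17546, 7378], ![7458, 16016, 7018], ![7998, 17546, 7378], ![7458, 16016, 7018]]

def muOne : Fin 4 → Fin 3 → ℕ :=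
  ![![12462, 9734, 6262], ![13002, 11264, 6622], ![12462, 9734, 6262], ![13002, 11264, 6622]]

def mu (i : Fin 2) (j : Fin 4) : Fin 3 → ℕ := if i = two j then muTwo j else muOne j

def TP (q : Fin 3 → ℂ[X]) (k μ : Fin 3 → ℕ) (a : ℕ) : ℂ[X] := ∏ e, q e ^ (μ e - a * k e)

def lA : List (ℚ × ℕ × ℕ) :=
  [((-14171968019533235625/25180044918679552), 0, 0),
   ((-1662978110569494075/2146598829317431808), 1, 0),
   ((13908342339940898745/779977071401017802752), 2, 0),
   ((558285244369802145/24179289213431551885312), 3, 0),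
   ((-52483899864375/5254600358656), 0, 1),
   ((-1596910578279388425/17172790634539454464), 1, 1),
   ((1953792335295/20345812588716032), 2, 1),
   ((485312951040201/377801393959867998208), 3, 1),
   ((171593325/8772287744), 0, 2),
   ((-36663220755/2917380640768), 1, 2),
   ((-220502526417/10172906294358016), 2, 2),
   ((-675/3459104), 0, 3),
   ((-74864013/91168145024), 1, 3),
   ((3/3459104), 0, 4)]

def lP : List (ℚ × ℕ × ℕ) :=
  [((-71509922064684169573696875/406129756752896), 0, 0),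
   ((-2884121215172035577116875/12590022459339776), 1, 0),
   ((2211683862855929870858370165/389988535700508901376), 2, 0),
   ((2855009163187493611626915/389988535700508901376), 3, 0),
   ((-353716624761204296829375/25383109797056), 0, 1),
   ((-2510036899772315625/328412522416), 1, 1),
   ((10814017315382700051356217/24374283481281806336), 2, 1),
   ((9287648636571563121/40691625177432064), 3, 1),
   ((843936480151875/12152512), 0, 2),
   ((1228968553235966325/2627300179328), 1, 2),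
   ((-36437349837179853/11669522563072), 2, 2),
   ((-81114912083362941/5086453147179008), 3, 2),
   ((27060312935625/1519064), 0, 3),
   ((398819775/432388), 1, 3),
   ((-110079506175711/182336290048), 2, 3),
   ((-1293/13836416), 3, 3),
   ((86872375/2536), 0, 4),
   ((-1151241/157232), 1, 4),
   ((-80577/13836416), 2, 4),
   ((-275), 0, 5),
   ((9/341), 1, 5)]

end Data

section Poly

variable {R : Type} [CommRing R] [Algebra ℂ R]

/-- polynomials in `w, u` of total degree at most `n` -/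
def Pol (w u : R) (n : ℕ) : Submodule ℂ R :=
  Submodule.span ℂ {z | ∃ a b : ℕ, a + b ≤ n ∧ z = w ^ a * u ^ b}

/-- the same without the monomial `u ^ n` -/
def Pol0 (w u : R) (n : ℕ) : Submodule ℂ R :=
  Submodule.span ℂ {z | ∃ a b : ℕ, a + b ≤ n ∧ b < n ∧ z = w ^ a * u ^ b}

def Jet (w u W : R) (T : ℕ → R) : Submodule ℂ R :=
  Submodule.span ℂ {z | ∃ c ∈ Algebra.adjoin ℂ {w, u}, ∃ a : ℕ, 1 ≤ a ∧ z = c * W ^ a * T a}

def IsF (w u : R) (i : Fin 2) (F : R) : Prop :=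
  F - u ^ nF ∈ Pol0 w u nF ∧ ∀ j : Fin 4, F - aeval u (TP (qP j) kk (mu i j) 0) ∈
    Jet w u (w - algebraMap ℂ R (wc j)) (fun a => aeval u (TP (qP j) kk (mu i j) a))

def ev (l : List (ℚ × ℕ × ℕ)) (w u : R) : R :=
  (l.map fun p => algebraMap ℂ R (p.1 : ℂ) * w ^ p.2.1 * u ^ p.2.2).sum

def Af (i : Fin 2) (w u : R) : R := ![ev lA w u, -ev lA (-w) u] i

/-- `P° = u * Pf` -/
def Pf (i : Fin 2) (w u : R) : R := u ^ 6 + ![ev lP w u, ev lP (-w) u] i

end Poly

structure Setup (K : Type) [Field K] [Algebra ℂ K] where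
  w : K
  u : K
  dw : Derivation ℂ K K
  du : Derivation ℂ K K
  F : Fin 2 → K
  φ : Fin 2 → K
  Vp : ValuationSubring K
  dw_w : dw w = 1
  dw_u : dw u = 0
  du_w : du w = 0
  du_u : du u = 1
  u_ne : u ≠ 0
  Vp_c : ∀ c : ℂ, algebraMap ℂ K c ∈ Vp
  Vp_x : Vp.valuation u⁻¹ < 1
  Vp_y : Vp.valuation (w * u⁻¹) < 1
  hF : ∀ i, IsF w u i (F i)
  hφ : ∀ i, φ i ^ NN * F i = ∏ j, (w - algebraMap ℂ K (wc j)) ^ mm i j
  gen : Subfield.closure (Set.range (algebraMap ℂ K) ∪ {w, u, φ 0, φ 1}) = ⊤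
  alg : Algebra.IsAlgebraic (Algebra.adjoin ℂ ({w, u} : Set K)) K

namespace Setup

variable {K : Type} [Field K] [Algebra ℂ K] (G : Setup K)

def x : K := G.u⁻¹
def y : K := G.w * G.u⁻¹
def W (j : Fin 4) : K := G.w - algebraMap ℂ K (wc j)
def L (j : Fin 4) : K := G.W j * G.u⁻¹
def g : K := ∏ j, G.W j
def gj (j : Fin 4) : K := ∏ k ∈ Finset.univ.erase j, G.W k
def t (j : Fin 4) : K := aeval G.u (tP j)
def I (j : Fin 4) : K := aeval G.u (IP j)
def Q (j : Fin 4) : K := aeval G.u (QP j)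
def O (i : Fin 2) (j : Fin 4) : K := aeval G.u (OP i j)
def M (i : Fin 2) (j : Fin 4) : K := aeval G.u (TP (qP j) kk (mu i j) 0)
def W' (j : Fin 4) : K := G.W j / G.Q j
def A (i : Fin 2) : K := Af i G.w G.u
def P0 (i : Fin 2) : K := G.u * Pf i G.w G.u
def P (i : Fin 2) : K := G.P0 i - G.u * G.w ^ 3 * G.A i
def Xf (i : Fin 2) : Derivation ℂ K K := (G.A i * G.g) • G.dw - G.P i • G.du
def v (i : Fin 2) : Derivation ℂ K K := G.φ i • G.Xf i
def Gam : K := G.A 0 * G.P0 1 - G.A 1 * G.P0 0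
def Ftot : K := (G.Gam * G.F 0 * G.F 1) ^ 34
def Psi (j : Fin 4) : K :=
  G.W j ^ (8 * cc) * (G.u ^ 3 * G.I j ^ 2) ^ (18 * cc) * G.gj j ^ (17 * cc)
/-- numerators of the generators of `A0` -/
def nums : Set K :=
  {G.g ^ (17 * cc), G.g ^ (17 * cc) * G.w ^ (306 * cc), G.g ^ (17 * cc) * G.u ^ (306 * cc)} ∪
    Set.range G.Psi
def A0 : Subalgebra ℂ K := Algebra.adjoin ℂ ((fun s => s / G.Ftot) '' G.nums)
def Rw : Subalgebra ℂ K := Algebra.adjoin ℂ {G.w, G.u}
def R0 : Subalgebra ℂ K := Algebra.adjoin ℂ {G.x, G.y}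
def Rl (j : Fin 4) : Subalgebra ℂ K := Algebra.adjoin ℂ {G.u, G.W' j}
def gam0 : K := G.Gam * G.x ^ 11
def f0 (i : Fin 2) : K := G.F i * G.x ^ nF
def gam (j : Fin 4) : K := G.Gam / (G.O 0 j * G.O 1 j)
def f (i : Fin 2) (j : Fin 4) : K := G.F i / G.M i j

end Setup

end Vale.Agent.P266
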